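import Vale.Agent.P209.Defs
import Vale.Agent.P209.Main

namespace Vale.Agent.Results.P209.ToricPackings

open Vale.Agent.P209

theorem result :
    (∀ n k : ℕ, 1 ≤ n → k ≤ 2 ^ n → ∀ (R : ℝ) (r : Fin k → ℝ), 0 < R → (∀ i, 0 < r i) →
      ∑ i, r i ^ n < R ^ n → (∀ i j, i ≠ j → r i + r j < R) → HasBallPacking n k R r) ∧
    (∀ n k m : ℕ, 1 ≤ n → 2 ≤ m → k ≤ m ^ n - (m - 1) ^ n + 1 →
      ∀ (R : ℝ) (r : Fin k → ℝ), 0 < R → (∀ i, 0 < r i) →
      ∑ i, r i ^ n < R ^ n → (∀ i j, i ≠ j → r i + r j < R) →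
      (∃ i, (m : ℝ) * (R - r i) ≤ R) → HasBallPacking n k R r) := by
  constructor
  · intro n k hn hk R r hR hr hvol hpair
    refine packing_main (m := 2) hn le_rfl hR hr hvol hpair ?_ (Or.inl rfl)
    have : 1 ≤ 2 ^ n := Nat.one_le_two_pow
    simp
    omega
  · intro n k m hn hm hk R r hR hr hvol hpair hbig
    exact packing_main hn hm hR hr hvol hpair hk (Or.inr hbig)

end Vale.Agent.Results.P209.ToricPackings
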